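import Crest.Agent.N250.Defs

/-!
# Row 250 (helper90): the block statements and their assembly

`Init` (Prelude flow → compact oriented flow), `A` (multiplicity one, quantitative), `Para`, `Lim`
(blow-up limits), `E` (ends of shrinkers), `LS` (discrete Łojasiewicz inequality), `Weak` (finite
length), `Out` (back to the Prelude).
-/

set_option autoImplicit false
open MeasureTheory Set Filter Topology
open scoped ContDiff InnerProductSpace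
open Crest.GeometryTopology.MCF

noncomputable section

namespace Crest.Agent.N250

/-- admissible time intervals: open, with right end `0` -/
structure Tm (I : Set ℝ) : Prop where
  isOpen : IsOpen I
  neg : ∀ t ∈ I, t < 0
  up : ∀ t ∈ I, ∀ s, t ≤ s → s < 0 → s ∈ I

theorem tm_Ioo (a : ℝ) : Tm (Ioo a 0) :=
  ⟨isOpen_Ioo, fun _ h => h.2, fun _ h _ h1 h2 => ⟨h.1.trans_le h1, h2⟩⟩

theorem tm_Iio : Tm (Iio 0) := ⟨isOpen_Iio, fun _ h => h, fun _ _ _ _ h2 => h2⟩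

/-- moduli of the quantitative multiplicity one theorem -/
structure Md where
  η : ℝ → ℝ
  L : ℝ → ℝ
  c : ℝ → ℝ
  η_pos : ∀ R, 0 < η R
  L_ge : ∀ R, 1 ≤ L R
  c_pos : ∀ R, 0 < c R

/-- almost self-similar about `(y, 0)` on the scales `[r / L, L r]` ⟹ two-sided balls of radius
`c r` at the points of `B(y, R r)` at time `-r²` -/
def AStar (F : Mv) (I : Set ℝ) (m : Md) : Prop :=
  ∀ (R : ℝ) (y : E) (r : ℝ), 0 < r → -(m.L R * r) ^ 2 ∈ I →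
    F.Fg (y, 0) (m.L R * r) - F.Fg (y, 0) (r / m.L R) < m.η R →
    ∀ x, (x, -r ^ 2) ∈ F.M → dist x y < R * r → F.Reach (x, -r ^ 2) (m.c R * r)

/-- the class of flows closed under translations, dilations and limits -/
structure Cl (F : Mv) (I : Set ℝ) (Λ : ℝ) (m : Md) : Prop where
  tm : Tm I
  fl : Fl F I Λ
  as : AStar F I m

/-- shrinkers (possibly empty) whose flow is in the class -/
structure Sh (S : Mv) (Λ : ℝ) (m : Md) : Prop where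
  shr : S.IsShr
  cl : Cl S.unresc (Iio 0) Λ m

/-- bounded flows on `(a, 0)` with the local Gauss–Bonnet inequality -/
structure Cpt (F : Mv) (a Λ G : ℝ) : Prop where
  neg : a < 0
  fl : Fl F (Ioo a 0) Λ
  bdd : ∃ ρ : ℝ, ∀ p ∈ F.M, ‖p.1‖ ≤ ρ
  lgb : LGB F G

/-- `F` is the Prelude flow `M` on `(T / 2, T)`, shifted in time by `T` -/
def Rep (F : Mv) (M : ℝ → Set E) (T : ℝ) : Prop :=
  ∀ x t, t ∈ Ioo (-(T / 2)) 0 → ((x, t) ∈ F.M ↔ x ∈ M (T + t))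

/-- all negative times -/
abbrev NT : Set ST := univ ×ˢ Iio 0

/-- the point `(s, r cos θ, r sin θ)` -/
def cylP (s r θ : ℝ) : E := !₂[s, r * Real.cos θ, r * Real.sin θ]

/-- the solid cone of slope `ε` about the first axis -/
def cone0 (ε : ℝ) : Set E := {x | √(x 1 ^ 2 + x 2 ^ 2) ≤ ε * x 0}

/-- the structure at infinity of a shrinker: `p` cylindrical ends (axis `Q j (ee 0)`, polar graphs
`r j`), the rest is conical -/
structure Ends (S : Mv) where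
  p : ℕ
  Q : Fin p → E ≃ₗᵢ[ℝ] E
  ε : ℝ
  R : ℝ
  r : Fin p → ℝ × ℝ → ℝ
  ε_pos : 0 < ε
  ε_le : ε ≤ 1
  R_ge : 3 ≤ ε * R
  disj : ∀ i j, i ≠ j → ∀ x, x ≠ 0 → (Q i).symm x ∈ cone0 ε → (Q j).symm x ∉ cone0 ε
  sm : ∀ j, ContDiffOn ℝ ∞ (r j) {q | R < q.1}
  per : ∀ j s θ, r j (s, θ + 2 * Real.pi) = r j (s, θ)
  near : ∀ j q, R < q.1 → 1 < r j q ∧ r j q < 2
  lim : ∀ j (k : ℕ) (δ : ℝ), 0 < δ → ∃ s₀ : ℝ, ∀ q : ℝ × ℝ, s₀ < q.1 →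
    ‖iteratedFDeriv ℝ k (fun q => r j q - √2) q‖ ≤ δ
  tube : ∀ j x, x ∈ cone0 ε → R < x 0 →
    (Q j x ∈ S.sl 0 ↔ ∃ θ, x = cylP (x 0) (r j (x 0, θ)) θ)
  reach : ∃ c : ℝ, 0 < c ∧ ∀ x ∈ S.sl 0, R < ‖x‖ → (∀ j, (Q j).symm x ∉ cone0 ε) →
    S.Reach (x, 0) (c * ‖x‖)
  jets : ∀ k : ℕ, ∃ C : ℝ, ∀ x ∈ S.sl 0, R < ‖x‖ → (∀ j, (Q j).symm x ∉ cone0 ε) →
    S.NJet k (C / ‖x‖ ^ k) (x, 0)
  reach₀ : ∃ ρ : ℝ, 0 < ρ ∧ ∀ x ∈ S.sl 0, S.Reach (x, 0) ρ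
  jets₀ : ∀ k : ℕ, ∃ C : ℝ, ∀ x ∈ S.sl 0, S.NJet k C (x, 0)

/-- the discrete Łojasiewicz inequality of `F` near the shrinker `S` (orientation free), with a
memory term `w` -/
def LS (F S : Mv) (Λ : ℝ) (m : Md) : Prop :=
  ∃ (θ C Q ε : ℝ) (Good : ℝ → ℝ → Prop), 1 / 2 < θ ∧ 0 < C ∧ 1 < Q ∧ 0 < ε ∧
    ∀ (l : Ultrafilter ℝ) (S' : Mv), (l : Filter ℝ) ≤ atTop → Sh S' Λ m → S'.M = S.M →
    Conv l (fun lam => F.para 0 lam) S'.unresc NT →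
    (∀ η, 0 < η → ∀ᶠ lam in (l : Filter ℝ), Good lam η) ∧
    ∀ᶠ lam in (l : Filter ℝ), ∀ w, 0 ≤ w → w ≤ ε → Good lam w →
      F.Fg 0 (2 / (Q * lam)) - S.Fs 0 0 1 ≤
        C * (F.Fg 0 (2 / lam) - F.Fg 0 (2 / (Q * lam)) + w) ^ θ ∧
      Good (Q * lam) (w / 4 + C * (F.Fg 0 (2 / lam) - F.Fg 0 (2 / (Q * lam))))

/-- the same without memory -/
def LS0 (F S : Mv) (Λ : ℝ) (m : Md) : Prop :=
  ∃ θ C : ℝ, 1 / 2 < θ ∧ 0 < C ∧ ∀ (l : Ultrafilter ℝ) (S' : Mv), (l : Filter ℝ) ≤ atTop →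
    Sh S' Λ m → S'.M = S.M → Conv l (fun lam => F.para 0 lam) S'.unresc NT →
    ∀ᶠ lam in (l : Filter ℝ), 0 ≤ F.Fg 0 (2 / lam) - F.Fg 0 (2 / (4 * lam)) ∧
      F.Fg 0 (2 / (4 * lam)) - S.Fs 0 0 1 ≤ C * (F.Fg 0 (2 / lam) - F.Fg 0 (2 / (4 * lam))) ^ θ

theorem LS0.ls {F S : Mv} {Λ : ℝ} {m : Md} (h : LS0 F S Λ m) : LS F S Λ m := by
  obtain ⟨θ, C, hθ, hC, h⟩ := h
  refine ⟨θ, C, 4, 1, fun _ _ => True, hθ, hC, by norm_num, one_pos, fun l S' h1 h2 h3 h4 =>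
    ⟨fun _ _ => Eventually.of_forall fun _ => trivial, ?_⟩⟩
  filter_upwards [h l S' h1 h2 h3 h4] with lam hl w hw _ _
  refine ⟨hl.2.trans (mul_le_mul_of_nonneg_left ?_ hC.le), trivial⟩
  exact Real.rpow_le_rpow hl.1 (by linarith) (by linarith)

/-- the rescaled area measures converge weakly, locally uniformly in time -/
def WConv (F S : Mv) : Prop :=
  ∀ f : E → ℝ, Continuous f → HasCompactSupport f → ∀ a b : ℝ, a ≤ b → b < 0 → ∀ ε > 0,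
    ∃ L : ℝ, ∀ lam ≥ L, ∀ s ∈ Icc a b,
      |∫ y, f y ∂(F.para 0 lam).mu s - ∫ y, f y ∂S.unresc.mu s| < ε

/-- orientation, area ratios, local Gauss–Bonnet -/
def InitStmt : Prop :=
  ∀ (M : ℝ → Set E) (T : ℝ), 0 < T → IsSmoothMCF M T → IsCompact (M 0) → IsConnected (M 0) →
    ∃ (F : Mv) (Λ G : ℝ), Cpt F (-(T / 2)) Λ G ∧ Rep F M T

/-- block A -/
def AStmt : Prop := ∀ (F : Mv) (a Λ G : ℝ), Cpt F a Λ G → ∃ m : Md, AStar F (Ioo a 0) m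

/-- the class is invariant under translations in space and parabolic dilations -/
def ParaStmt : Prop :=
  ∀ (F : Mv) (I : Set ℝ) (Λ : ℝ) (m : Md) (y : E) (lam : ℝ), 0 < lam → Cl F I Λ m →
    Cl (F.para (y, 0) lam) {t | t / lam ^ 2 ∈ I} Λ m

/-- almost self-similar flows of the class converge to a shrinker of the class -/
def LimStmt : Prop :=
  ∀ (α : Type) (l : Ultrafilter α) (Fk : α → Mv) (Ik : α → Set ℝ) (Λ : ℝ) (m : Md),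
    (∀ᶠ k in (l : Filter α), Cl (Fk k) (Ik k) Λ m) →
    (∀ t < 0, ∀ᶠ k in (l : Filter α), t ∈ Ik k) →
    (∀ K : ℝ, 1 < K → Tendsto (fun k => (Fk k).Fg 0 K - (Fk k).Fg 0 K⁻¹) l (𝓝 0)) →
    ∃ S : Mv, Sh S Λ m ∧ Conv l Fk S.unresc NT

/-- block E -/
def EStmt : Prop := ∀ (S : Mv) (Λ : ℝ) (m : Md), Sh S Λ m → Nonempty (Ends S)

/-- blocks R, B, L -/
def LSStmt : Prop :=
  ∀ (F S : Mv) (a Λ : ℝ) (m : Md), a < 0 → Cl F (Ioo a 0) Λ m → Sh S Λ m → Nonempty (Ends S) →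
    LS F S Λ m

/-- finite length -/
def WeakStmt : Prop :=
  ∀ (F : Mv) (a Λ : ℝ) (m : Md), a < 0 → Cl F (Ioo a 0) Λ m → (∀ S, Sh S Λ m → LS F S Λ m) →
    ∃ S : Mv, S.IsShr ∧ WConv F S ∧
      ∃ l : Ultrafilter ℝ, (l : Filter ℝ) ≤ atTop ∧ Conv l (fun lam => F.para 0 lam) S.unresc NT

/-- back to the Prelude (sphere avoidance gives a point of `S`) -/
def OutStmt : Prop :=
  ∀ (M : ℝ → Set E) (T : ℝ) (x₀ : E) (F S : Mv) (Λ : ℝ), 0 < T → Fl F (Ioo (-(T / 2)) 0) Λ →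
    Rep F M T → (∀ ε > 0, ∀ δ > 0, ∃ t ∈ Ioo (T - δ) T, ∃ y ∈ M t, dist y x₀ < ε) → S.IsShr →
    WConv (F.para (x₀, 0) 1) S →
    (∃ l : Ultrafilter ℝ, (l : Filter ℝ) ≤ atTop ∧
      Conv l (fun lam => (F.para (x₀, 0) 1).para 0 lam) S.unresc NT) →
    IsSelfShrinker (S.sl 0) ∧ RescalingsConvergeTo M T x₀ (S.sl 0)

theorem s0387_of (hI : InitStmt) (hA : AStmt) (hP : ParaStmt) (hE : EStmt) (hL : LSStmt)
    (hW : WeakStmt) (hO : OutStmt) (M : ℝ → Set E)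
    (T : ℝ) (hT : 0 < T) (hM : IsSmoothMCF M T) (hc : IsCompact (M 0)) (hconn : IsConnected (M 0))
    (x₀ : E) (hx : IsSingularPoint M T x₀) :
    ∃ S : Set E, IsSelfShrinker S ∧ RescalingsConvergeTo M T x₀ S := by
  obtain ⟨F, Λ, G, hF, hR⟩ := hI M T hT hM hc hconn
  obtain ⟨m, hm⟩ := hA F _ Λ G hF
  have h1 : Cl (F.para (x₀, 0) 1) (Ioo (-(T / 2)) 0) Λ m := by
    have := hP F _ Λ m x₀ 1 one_pos ⟨tm_Ioo _, hF.fl, hm⟩
    simpa only [one_pow, div_one, Set.ofPred_mem_eq] using this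
  obtain ⟨S, hS, hw, hl⟩ := hW _ _ Λ m hF.neg h1
    (fun S hS => hL _ S _ Λ m hF.neg h1 hS (hE S Λ m hS))
  exact ⟨_, hO M T x₀ F S Λ hT hF.fl hR hx.1 hS hw hl⟩

end Crest.Agent.N250

end
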